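import Crest.Agent.X212.Hel40.Stp
import Crest.Agent.X212.Lev9.Single
import Crest.Agent.X212.Sm10.Hd2
import Crest.Agent.X212.Hd34.Hd
import Crest.Agent.X212.Orx52.All

/-!
# Row 212, HEL / SURF (helper6): the regluing map
-/

set_option autoImplicit false
noncomputable section
open Set Filter Topology Function
open scoped ContDiff Manifold
open Crest.Agent.X212.Int54 Crest.Agent.X212.Hel40 Crest.Agent.X212.Lev9
open Crest.Agent.X212.Sep15 (CM)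
open Crest.Agent.X212.Bb31 (Fm Df Pos)
open Crest.Agent.X212.H7 (KK An NS Hd)

namespace Crest.Agent.X212.Srf6

variable {R : CM 2} {o : Fm 2 R}

/-- change of coordinates, by a positive map -/
theorem coc (ho : Ori (𝓡 2) o) {A B : ℂ → R} (hA : An o A) (hB : An o B) (nA : NS A) (nB : NS B) :
    ∃ k : Df R, KK o k ∧ Pos o k ∧ ∃ δ > (0 : ℝ), ∀ z : ℂ, |z.im| < δ → k (A z) = B z := by
  have : Nonempty R := ⟨A 0⟩
  obtain ⟨k, k1, -, δ, h0, k2⟩ := Coc52.coc (X := Orx52.sf ho) (U := univ) (Mcg32.surg Tub3.tub)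
    isOpen_univ ((Orx52.an_iff ho).2 hA) ((Orx52.an_iff ho).2 hB) (subset_univ _) (subset_univ _)
    (compl_eq_univ_sdiff _ ▸ nA) (compl_eq_univ_sdiff _ ▸ nB)
  obtain ⟨g, a, b⟩ := Orx52.kk_of ho k1
  exact ⟨Orx52.dfOf ho (Prf6.K_le k1), a.congr fun x => (b x).symm, Orx52.pos_dfOf ho _, δ, h0, k2⟩

/-- one annulus off `K` -/
theorem one (ho : Ori (𝓡 2) o) (hc : IsPreconnected (univ : Set R)) {K : Set R} {e : ℂ → R}
    {δ δ' ε : ℝ} {u : R → Circle} (hK : IsClosed K) (cK : IsPreconnected Kᶜ) (he : Hdl e δ)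
    (h0 : 0 < δ') (h1 : δ' < δ) (hε : 0 < ε) (h2 : ε ≤ δ' / 2) (hu : SC u) (u1 : ∀ x ∈ K, u x = 1)
    (u2 : ∀ z ∈ Xc δ', e z ∉ K ∧ u (e z) = dz ε z) :
    ∃ A, An o A ∧ range A ⊆ Kᶜ ∧ NS A ∧ Hm u (del A 1) := by
  obtain ⟨-, c, -, ⟨σ, hσ⟩, b⟩ := Hd34.hd1Stmt R e δ δ' he h0 h1
  obtain ⟨b1, b2, -, b3⟩ := b σ hσ
  obtain ⟨b4, b5⟩ := b3 ε hε h2
  have s : e '' Xc δ' ⊆ Kᶜ := by rintro _ ⟨z, hz, rfl⟩; exact (u2 z hz).1
  have m : ∀ t : ℝ, e (t * Complex.I) ∈ e '' Xc δ' := fun t =>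
    ⟨_, .inl ⟨0, by simpa using h0.le⟩, rfl⟩
  obtain ⟨A, a1, a2, a3, a4, -⟩ := single' (w := (del (hA e σ) ε)⁻¹ * u) ho hK.isOpen_compl cK
    c.isClosed b1 (b2.trans s) hε ((image_subset_range _ _).trans b2) b5 (fun t => ⟨s (m t), m t⟩)
    ((Hd34.delStmt R _ ε b1 hε).1.inv.mul hu) (by
      rintro x (hx | ⟨z, hz, rfl⟩)
      · rw [Pi.mul_apply, Pi.inv_apply, u1 x (not_not.1 hx), Hd34.del_off b1 hε fun k =>
          hx (s (b2 (image_subset_range _ _ k))), inv_one, one_mul]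
      · rw [Pi.mul_apply, Pi.inv_apply, (u2 z hz).2, b4 z (Hd34.Xc_sub h1 hz), inv_mul_cancel])
  rw [mul_inv_cancel_left] at a3
  have ns : ∀ B, An' B → del B 1 = del A 1 → NS B := fun B h e => by
    have := Hd34.conn h one_pos isOpen_univ hc (subset_univ _) (e ▸ dual_nl a4 fun _ => trivial)
    rwa [← compl_eq_univ_sdiff] at this
  rcases Sm10.an_or ho a1 with h | h
  · exact ⟨A, h, a2, ns A a1 rfl, a3⟩
  · exact ⟨_, h, (range_comp_subset_range _ _).trans a2, ns _ (Sm10.an'_rf a1) (Sm10.del_rf a1 1),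
      (Sm10.del_rf a1 1).symm ▸ a3⟩

/-- **SURF** -/
theorem surf : SurfStmt := by
  intro R o K₁ K₂ e₁ e₂ δ δ' ε u₁ u₂ ho hc k1 k2 c1 c2 h1 h2 d0 d1 e0 e1 s1 s2 o1 o2 hx
  obtain ⟨A₁, a1, a2, a3, a4⟩ := one ho hc k1 c1 h1 d0 d1 e0 e1 s1 o1
    fun z hz => ⟨(hx z hz).1, (hx z hz).2.2.1⟩
  obtain ⟨A, b1, b2, b3, b4⟩ := one ho hc k2 c2 h2 d0 d1 e0 e1 s2 o2
    fun z hz => ⟨(hx z hz).2.1, (hx z hz).2.2.2⟩
  obtain ⟨h, kk, hp, η, η0, hη⟩ := coc ho a1 b1 a3 b3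
  obtain ⟨B, δ₁, hd, -⟩ := Orx52.hd_same ho isOpen_univ b1 (subset_univ _)
    (compl_eq_univ_sdiff _ ▸ b3)
  have m0 := lt_min η0 hd.pos
  have p := half_pos m0
  have q := half_lt_self m0
  set r := min η δ₁ / 2
  have a' := Sm10.an' a1
  have b' := Sm10.an' b1
  have e : del A r ∘ h = del A₁ r := funext fun x => by
    have l : ∀ z : ℂ, |z.im| ≤ r → h (A₁ z) = A z := fun z hz =>
      hη z ((hz.trans_lt q).trans_le (min_le_left _ _))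
    by_cases k : x ∈ A₁ '' {z | |z.im| ≤ r}
    · obtain ⟨z, hz, rfl⟩ := k
      rw [comp_apply, l z hz, Hd34.del_app a', Hd34.del_app b']
    · exact (Hd34.del_off b' p fun ⟨z, hz, c⟩ =>
        k ⟨z, hz, h.injective ((l z hz).trans c)⟩).trans (Hd34.del_off a' p k).symm
  have n : ∀ {A : ℂ → R} {K : Set R}, An' A → range A ⊆ Kᶜ → ∀ᶠ x in 𝓝ˢ K, del A r x = 1 :=
    fun a c => mem_of_superset ((Hd34.band_cpt a r).isClosed.isOpen_compl.mem_nhdsSet.2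
      fun _ k d => c (image_subset_range _ _ d) k) fun _ => Hd34.del_off a p
  have t := fun A a => (Hd34.delStmt R A 1 a one_pos).2.2.2.2.1 r p
  exact ⟨h, A, B, δ₁, r, kk, hp, hd, p, q.trans_le (min_le_right _ _),
    (Hd34.delStmt R A r b' p).1, e ▸ hm_trans a4 (t _ a'), hm_trans b4 (t _ b'),
    (n a' a2).mono fun x c => (congrFun e x).trans c, n b' b2⟩

end Crest.Agent.X212.Srf6
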